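import Vale.Agent.P037.Counting

/-!
P037: the polynomial ordered binary matrix removal conjecture is false.
-/

namespace Vale.Agent.Results.P037.Disproof

open Vale.Agent.P037

/-- For one fixed binary pattern `H` and every candidate pair of constants `c, C > 0` there are
`n`, `ε` and an `n × n` matrix that is `ε`-far from `H`-free (every `H`-free matrix differs from it
in at least `ε n ^ 2` entries) but has fewer than `c ε ^ C n ^ (2 k)` ordered copies of `H`. -/
theorem result : ∃ (k : ℕ) (H : Fin k → Fin k → Bool), ∀ c C : ℝ, 0 < c → 0 < C →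
    ∃ n : ℕ, 1 ≤ n ∧ ∃ ε : ℝ, 0 < ε ∧ ε < 1 ∧ ∃ A : Fin n → Fin n → Bool,
      (∀ B : Fin n → Fin n → Bool, numCopies H B = 0 → ε * (n : ℝ) ^ 2 ≤ (numDiff A B : ℝ)) ∧
      (numCopies H A : ℝ) < c * ε ^ C * (n : ℝ) ^ (2 * k) := by
  refine ⟨63, pat, fun c C hc hC => ?_⟩
  obtain ⟨M, hM⟩ := exists_level c hc ⌈2 * C⌉₊
  obtain ⟨n, A, hn, hcop, hfar⟩ := exists_matrix M
  have hP2 : (2 : ℝ) ≤ (Fintype.card (Cls M) : ℝ) := by exact_mod_cast two_le_card_cls M
  have hP : (Fintype.card (Cls M) : ℝ) ≤ 18 * ((M : ℝ) + 56) := by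
    exact_mod_cast card_cls_le M
  set P : ℝ := (Fintype.card (Cls M) : ℝ)
  have hP0 : 0 < P := by linarith
  have hnR : (n : ℝ) = P * 2 ^ M := by rw [hn]; push_cast; rfl
  have hnpos : (0 : ℝ) < n := by rw [hnR]; positivity
  refine ⟨n, by exact_mod_cast hnpos, 1 / P ^ 2, by positivity, ?_, A, ?_, ?_⟩
  · rw [div_lt_one (by positivity)]
    nlinarith
  · intro B hB
    have h : ((2 : ℝ) ^ M) * 2 ^ M ≤ (numDiff A B : ℝ) := by exact_mod_cast hfar B hB
    rw [hnR]
    calc 1 / P ^ 2 * (P * 2 ^ M) ^ 2 = 2 ^ M * 2 ^ M := by field_simp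
      _ ≤ _ := h
  · have hpow : (P ^ 2) ^ C ≤ (18 * ((M : ℝ) + 56)) ^ ⌈2 * C⌉₊ := by
      calc (P ^ 2) ^ C = P ^ (2 * C) := by
            rw [← Real.rpow_natCast P 2, ← Real.rpow_mul hP0.le]; norm_num
        _ ≤ P ^ ((⌈2 * C⌉₊ : ℕ) : ℝ) :=
            Real.rpow_le_rpow_of_exponent_le (by linarith) (Nat.le_ceil _)
        _ = P ^ ⌈2 * C⌉₊ := Real.rpow_natCast _ _
        _ ≤ _ := by gcongr
    have hbig : (P ^ 2) ^ C < c * n := by
      rw [hnR]
      nlinarith [hpow, hM, mul_pos hc (pow_pos (two_pos : (0 : ℝ) < 2) M)]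
    have heps : (1 / P ^ 2) ^ C = 1 / (P ^ 2) ^ C := by
      rw [Real.div_rpow zero_le_one (by positivity), Real.one_rpow]
    have hne : 0 < (P ^ 2) ^ C := by positivity
    calc (numCopies pat A : ℝ) ≤ (n : ℝ) ^ 125 := by exact_mod_cast hcop
      _ < c * (1 / P ^ 2) ^ C * n * (n : ℝ) ^ 125 := by
          have hone : 1 < c * (1 / P ^ 2) ^ C * n := by
            rw [heps, mul_one_div, div_mul_eq_mul_div, lt_div_iff₀ hne]
            linarith
          exact (lt_mul_iff_one_lt_left (by positivity)).2 hone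
      _ = c * (1 / P ^ 2) ^ C * (n : ℝ) ^ (2 * 63) := by
          rw [show (2 * 63 : ℕ) = 125 + 1 by norm_num, pow_succ]; ring

end Vale.Agent.Results.P037.Disproof
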